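import Vale.Agent.P011N.Cl.N4.Inv
import Vale.Agent.P011.H900.BrgE

/-!
The normalizer of the spin group consists of similitudes.
-/

namespace Vale.Agent.P011N.Cl.N4

open Vale.Agent.P011.MPQ Vale.Agent.P011.D4 Vale.Agent.P011.D4.Oct Equiv Module

section nrm

variable {F : Type} [Field F] [NumberField F] {A B C : Fˣ} {γ : Gl F} {φ : Perm (V4 A B C)}

/-- The bijection normalizes the group. -/
def Nm (φ : Perm (V4 A B C)) : Prop := ∀ g ∈ S4 A B C, φ * g * φ⁻¹ ∈ S4 A B C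

theorem Nm.exists (h : Nm φ) {g : Perm (V4 A B C)} (hg : g ∈ S4 A B C) :
    ∃ g' : Perm (V4 A B C), Sim4 (⇑(1 : Gl F)) 1 1 1 g' ∧ ∀ x, φ (g x) = g' (φ x) :=
  ⟨_, mem_S4.1 (h g hg), fun x => by simp⟩

theorem sim_inner (hs : Semi γ φ) (hn : Nm φ) (h : ∀ x i, φ x i = cp φ 1 i (x i)) :
    ∃ μ ν, Sim4 γ 1 μ ν φ := by
  have h1 : ∀ i, Semi γ (cp φ 1 i) := fun i t x y => by
    rw [cp, cp, cp, Pi.single_add, Pi.single_smul', hs]
    rfl
  have h2 : ∀ i, ∃ l : F, ∀ x, norm (φ x i) = γ l * γ (norm (x i)) := fun i => by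
    obtain ⟨l, hl⟩ := bil_unique' i (LinearMap.mk₂ F
      (fun x y => γ.symm (bil (cp φ 1 i x) (cp φ 1 i y)))
      (fun x y z => by rw [(h1 i).add, bil_add_left, map_add])
      (fun t x y => by rw [(h1 i).smul, bil_smul_left, map_mul, γ.symm_apply_apply, smul_eq_mul])
      (fun x y z => by rw [(h1 i).add, bil_add_right, map_add])
      (fun t x y => by rw [(h1 i).smul, bil_smul_right, map_mul, γ.symm_apply_apply, smul_eq_mul]))
      fun g hg x y => by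
        obtain ⟨g', h3, h4⟩ := hn.exists hg
        rw [LinearMap.mk₂_apply, LinearMap.mk₂_apply, ← h, ← h, ← h, ← h, h4, h4]
        exact congrArg γ.symm ((h3.obil _ _ i).trans (one_mul _))
    refine ⟨l, fun x => ?_⟩
    have h3 := congrArg γ (hl (x i) (x i))
    rw [LinearMap.mk₂_apply, γ.apply_symm_apply, ← h, bil_self, bil_self, map_mul, map_mul,
      map_ofNat] at h3
    linear_combination h3 / 2
  choose l hl using h2
  obtain ⟨ν, hν⟩ := tau_unique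
    (θ := fun x y z => γ.symm (bil (cp φ 1 0 x * cp φ 1 1 y * cp φ 1 2 z) 1))
    (by
      constructor <;> intros <;>
        simp only [(h1 _).add, (h1 _).smul, add_mul, mul_add, smul_mul_assoc, mul_smul_comm,
          bil_add_left, bil_smul_left, map_add, map_mul, γ.symm_apply_apply])
    fun g hg x => by
      obtain ⟨g', h3, h4⟩ := hn.exists hg
      simp only [← h]
      rw [← tau, ← tau, h4, h3.tri, one_mul]
      rfl
  have h3 : ∀ x, tau (φ x) = γ ν * γ (tau x) := fun x => by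
    rw [← map_mul, tau, tau, ← hν, γ.apply_symm_apply, ← h, ← h, ← h]
  obtain ⟨x, hx⟩ := φ.surjective fun _ => 1
  refine ⟨fun i => γ (l i), γ ν, hs, fun x i => hl i x, h3, fun i h0 => ?_, fun h0 => ?_⟩
  · have h4 := hl i x
    rw [hx, h0, zero_mul, Oct.norm_one] at h4
    exact one_ne_zero h4
  · have h4 := h3 x
    rw [hx, h0, zero_mul, tau_one] at h4
    exact two_ne_zero h4

theorem exists_perm (hs : Semi γ φ) (hn : Nm φ) :
    ∃ π : Perm (Fin 3), ∀ x i, φ x (π i) = cp φ π i (x i) := by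
  have h1 : ∀ i j, ∃ c : F, ∀ u,
      Pi.single i (φ (Pi.single j u) i) = c • φ (Pi.single j u) := fun i j => by
    have h0 : Semi (id : F → F) fun x => φ⁻¹ (Pi.single i (φ x i)) := by
      have h := hs.inv.comp (Semi.lin_comp (semi_lin (LinearMap.single F (fun _ => Oct A B C) i ∘ₗ
        LinearMap.proj i)) hs)
      rwa [inv_mul_cancel] at h
    obtain ⟨l, hl⟩ := comm4 h0.lin fun g hg x => by
      obtain ⟨g', h1, h2⟩ := hn.exists hg
      change φ⁻¹ (Pi.single i (φ (g x) i)) = g (φ⁻¹ (Pi.single i (φ x i)))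
      rw [Perm.inv_eq_iff_eq, h2, h2, Perm.coe_inv, φ.apply_symm_apply, h1.single, ← h1.apply]
      rfl
    refine ⟨γ (l j), fun u => ?_⟩
    rw [← hs.smul, ← Perm.inv_eq_iff_eq]
    funext m
    refine (hl _ m).trans ?_
    by_cases hm : m = j
    · rw [hm, Pi.smul_apply]
    · rw [Pi.smul_apply, Pi.single_eq_of_ne hm, smul_zero, smul_zero]
  have h2 : ∀ j, ∃ i, ∀ u m, m ≠ i → φ (Pi.single j u) m = 0 := fun j => by
    obtain ⟨i, hi⟩ := Function.ne_iff.1 (hs.ne_zero (x := Pi.single j 1)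
      fun h0 => oct_one_ne ((Pi.single_eq_same j _).symm.trans (congrFun h0 j)))
    obtain ⟨c, hc⟩ := h1 i j
    have h3 := congrFun (hc 1) i
    rw [Pi.single_eq_same, Pi.smul_apply, ← one_smul F (φ _ i), smul_smul, mul_one] at h3
    refine ⟨i, fun u m hm => ?_⟩
    rw [← one_smul F (φ _), smul_left_injective F hi h3, ← hc, Pi.single_eq_of_ne hm]
  choose p hp using h2
  have h3 : ∀ x m, φ x m = ∑ j, φ (Pi.single j (x j)) m := fun x m => by
    rw [← Finset.sum_apply, ← hs.sum, Finset.univ_sum_single]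
  have h4 : Function.Surjective p := fun i => by
    by_contra h0
    obtain ⟨x, hx⟩ := φ.surjective fun _ => 1
    have h5 := h3 x i
    rw [hx, Finset.sum_eq_zero fun j _ => hp j _ _ fun h6 => h0 ⟨j, h6.symm⟩] at h5
    exact oct_one_ne h5
  have h5 := Finite.surjective_iff_bijective.1 h4
  refine ⟨Equiv.ofBijective p h5, fun x i => ?_⟩
  rw [h3]
  exact Fintype.sum_eq_single i fun j hj => hp j _ _ (h5.1.ne hj.symm)

/-- **The normalizer.** -/
theorem sim_of_nm (hs : Semi γ φ) (hn : Nm φ) : ∃ π μ ν, Sim4 γ π μ ν φ := by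
  obtain ⟨π, hπ⟩ := exists_perm hs hn
  have h1 : Sim4 (⇑(1 : Gl F)) π 1 1 (stP 1 π : Perm (V4 A B C)) := sim4_st4 ⟨rfl, rfl, rfl⟩
  have h2 := h1.symm
  obtain ⟨μ, ν, h3⟩ := sim_inner (φ := (stP 1 π)⁻¹ * φ) (γ := γ)
    (by simpa using h2.semi.mul hs) (fun g hg => by
      have h3 := h2.conj_S4 (hn g hg)
      rwa [mul_inv_rev, inv_inv, mul_assoc, mul_assoc, ← mul_assoc g, ← mul_assoc φ, ← mul_assoc φ,
        ← mul_assoc]) fun x i => by
      obtain ⟨i, rfl⟩ := π⁻¹.surjective i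
      refine h2.congr ?_
      obtain ⟨i, rfl⟩ := π.surjective i
      rw [hπ, show π⁻¹ (π i) = i from π.symm_apply_apply i]
      rfl
  have h4 := h1.comp h3
  rw [one_mul, mul_one, ← Perm.coe_mul, mul_inv_cancel_left] at h4
  exact ⟨_, _, _, h4⟩

/-- The saturation of a group which normalizes the spin group. -/
theorem exists_dat {Φ : Subgroup (Perm (V4 A B C))} (h : Form F (S4 A B C) Φ) :
    ∃ (Γ : Subgroup (Gl F)) (Φ' : Subgroup (Perm (V4 A B C))), Dat4 Γ Φ' ∧ Φ ≤ Φ' ∧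
      Pts (S4 A B C) Φ = Pts (S4 A B C) Φ' := by
  have h1 : ∀ φ ∈ Φ, ∃ (γ : Gl F) (π : Perm (Fin 3)) (μ : Fin 3 → F) (ν : F), Sim4 γ π μ ν φ :=
    fun φ hφ => by
      obtain ⟨g, hg⟩ := h.semi φ hφ
      obtain ⟨γ, rfl⟩ := exists_gl hg
      exact ⟨γ, sim_of_nm hg (h.norm φ hφ)⟩
  let Γ : Subgroup (Gl F) :=
    { carrier := {γ | ∃ φ ∈ Φ, Semi γ φ}
      mul_mem' := by
        rintro γ δ ⟨φ, h2, h3⟩ ⟨ψ, h4, h5⟩
        exact ⟨φ * ψ, Φ.mul_mem h2 h4, h3.mul h5⟩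
      one_mem' := ⟨1, Φ.one_mem, semi_id⟩
      inv_mem' := by
        rintro γ ⟨φ, h2, h3⟩
        exact ⟨φ⁻¹, Φ.inv_mem h2, h3.inv⟩ }
  have h2 : ∀ φ ∈ Φ, ∀ z ∈ Z4 A B C, φ * z * φ⁻¹ ∈ Z4 A B C := fun φ hφ z hz => by
    obtain ⟨_, _, _, _, h3⟩ := h1 φ hφ
    exact h3.conj_Z4 hz
  let Φ' : Subgroup (Perm (V4 A B C)) :=
    { carrier := {φ' | ∃ z ∈ Z4 A B C, ∃ φ ∈ Φ, φ' = z * φ}
      mul_mem' := by
        rintro _ _ ⟨z, h3, φ, h4, rfl⟩ ⟨z', h5, φ', h6, rfl⟩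
        exact ⟨_, (Z4 A B C).mul_mem h3 (h2 φ h4 z' h5), _, Φ.mul_mem h4 h6, by group⟩
      one_mem' := ⟨1, (Z4 A B C).one_mem, 1, Φ.one_mem, (one_mul 1).symm⟩
      inv_mem' := by
        rintro _ ⟨z, h3, φ, h4, rfl⟩
        exact ⟨_, h2 _ (Φ.inv_mem h4) _ ((Z4 A B C).inv_mem h3), _, Φ.inv_mem h4, by group⟩ }
  have h3 : ∀ φ' ∈ Φ', ∃ γ ∈ Γ, ∃ π μ ν, Sim4 γ π μ ν φ' := by
    rintro _ ⟨z, h3, φ, h4, rfl⟩
    obtain ⟨γ, _, _, _, h5⟩ := h1 φ h4
    obtain ⟨_, _, h6⟩ := sim4_Z4 h3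
    have h7 := (sim4_one.2 h6).comp h5
    rw [one_mul] at h7
    exact ⟨γ, ⟨φ, h4, h5.semi⟩, _, _, _, h7⟩
  have h4 : Φ ≤ Φ' := fun φ hφ => ⟨1, (Z4 A B C).one_mem, φ, hφ, (one_mul φ).symm⟩
  refine ⟨Γ, Φ', ⟨⟨fun φ hφ => ?_, ?_⟩, h3, ?_, fun z hz => ⟨z, hz, 1, Φ.one_mem, (mul_one z).symm⟩⟩,
    h4, ?_⟩
  · obtain ⟨γ, h5, _, _, _, h6⟩ := h3 φ hφ
    exact ⟨γ, h5, h6.semi⟩
  · rintro γ ⟨φ, h5, h6⟩
    exact ⟨φ, h4 h5, h6⟩
  · rintro _ ⟨z, h4, φ, h5, rfl⟩ h6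
    have h7 : Semi (id : F → F) φ := by
      have h8 := Semi.lin_comp (γ := 1) (semi_Z4 ((Z4 A B C).inv_mem h4)) h6
      rwa [← Perm.coe_mul, inv_mul_cancel_left] at h8
    exact (Z4 A B C).mul_mem h4 (mem_Z4.2 (comm4 h7.lin fun g hg x =>
      DFunLike.congr_fun (h.cent φ h5 h7 g hg) x))
  · ext g
    rw [mem_Pts, mem_Pts]
    refine and_congr_right fun hg => ⟨?_, fun h5 φ hφ => h5 φ (h4 hφ)⟩
    rintro h4 _ ⟨z, h5, φ, h6, rfl⟩
    rw [mul_assoc, h4 φ h6, ← mul_assoc, comm_Z4_S4 h5 hg, mul_assoc]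

end nrm

open Vale.Agent.P011.H900

variable {F : Type} [Field F]

/-- The triples of octonions in the old and in the new letters. -/
def pe (F : Type) [Field F] : V4 (1 : Fˣ) 1 1 ≃ (Fin 3 → Oc (1 : F) 1) :=
  Equiv.piCongrRight fun _ => oe 1 1 1

theorem semi_pe : Semi (id : F → F) (pe F) := fun _ _ _ => rfl

theorem cub_pe (d : Fin 3 → F) (x : V4 (1 : Fˣ) 1 1) :
    cub 1 (d, pe F x) = d 0 * d 1 * d 2 - ∑ i, d i * Oct.norm (x i) + tau x := by
  refine (cub_eq (a := 1) (b := 1) (c := 1) _).trans ?_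
  rw [Fin.sum_univ_three, ← sub_sub, ← sub_sub]
  rfl

theorem mem_Spin [CharZero F] (g : Perm (V4 (1 : Fˣ) 1 1)) :
    g ∈ S4 (1 : Fˣ) 1 1 ↔ (pe F).permCongr g ∈ Spin F := by
  have h1 : ∀ g : Perm (V4 (1 : Fˣ) 1 1), Sim4 id 1 1 1 g ↔
      Semi (id : F → F) ((pe F).permCongr g) ∧
        ∀ d x, cub 1 (d, (pe F).permCongr g x) = cub 1 (d, x) := fun g => by
    simp only [(pe F).surjective.forall, permCongr_apply, symm_apply_apply, cub_pe]
    rw [← semi_one, semi_congr semi_pe]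
    refine ⟨fun h => ⟨h.semi, fun d x => ?_⟩, fun h => ?_⟩
    · have h2 : ∀ i, Oct.norm (g x i) = Oct.norm (x i) := fun i => (h.nrm x i).trans (one_mul _)
      simp only [h2, h.tri, one_mul, id]
    · have h2 : ∀ x, tau (g x) = tau x := fun x => by simpa using h.2 0 x
      exact ⟨h.1, fun x i => by simpa [h2, Pi.single_apply] using h.2 (Pi.single i 1) x,
        fun x => (h2 x).trans (one_mul _).symm, fun _ => one_ne_zero, one_ne_zero⟩
  refine ⟨fun h => Subgroup.subset_closure ((h1 g).1 (mem_S4.1 h)), fun h => ?_⟩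
  have h2 : Spin F ≤ tr (pe F).symm (S4 1 1 1) := (Subgroup.closure_le _).2 fun f hf => by
    obtain ⟨f, rfl⟩ := (pe F).permCongr.surjective f
    rw [SetLike.mem_coe, mem_tr, congr_symm]
    exact mem_S4.2 ((h1 f).2 hf)
  have h3 := h2 h
  rwa [mem_tr, congr_symm] at h3

/-- **From the normalizer to the similitudes.** -/
theorem n4Stmt : N4Stmt := by
  intro F _ _ Φ h
  obtain ⟨Γ, Φ', h1, h2, h3⟩ := exists_dat (Φ := tr (pe F) Φ)
    ⟨fun φ hφ => by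
      obtain ⟨g, hg⟩ := h.semi _ hφ
      obtain ⟨γ, rfl⟩ := exists_gl hg
      exact ⟨γ, (semi_congr semi_pe).1 hg⟩,
    fun φ hφ g hg => by
      have h1 := h.norm _ hφ _ ((mem_Spin g).1 hg)
      rw [mem_Spin]
      convert h1 using 1
      exact (map_mul (pe F).permCongrHom _ _).trans (congrArg₂ _ (map_mul (pe F).permCongrHom _ _)
        (map_inv (pe F).permCongrHom _)),
    fun φ hφ hs g hg => (pe F).permCongrHom.injective (by
      rw [map_mul, map_mul]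
      exact h.cent _ hφ ((semi_congr (γ := 1) semi_pe).2 hs) _ ((mem_Spin g).1 hg))⟩
  refine ⟨Γ, Φ', h1, fun hT i => ?_, h3 ▸ (uiso_tr (semi_one.2 semi_pe).sub mem_Spin).symm⟩
  obtain ⟨φ, k1, x, j, k2, k3⟩ := hT i
  refine ⟨_, h2 (symm_mem_tr.2 k1), ⟨x.1, x.2⟩, j, k2, fun k4 => k3 ?_⟩
  rw [show Pi.single i x = pe F (Pi.single i ⟨x.1, x.2⟩) from funext fun m =>
    (Pi.apply_single (fun _ => oe (1 : Fˣ) 1 1) (fun _ => rfl) i ⟨x.1, x.2⟩ m).symm]
  exact congrArg (oe 1 1 1) k4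

end Vale.Agent.P011N.Cl.N4
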