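import Vale.Agent.P011N.Cl.T.Unit

/-!
The invariants of the spin group in the sum of its three representations of dimension eight.
-/

namespace Vale.Agent.P011N.Cl.N4

open Vale.Agent.P011.MPQ Vale.Agent.P011.D4 Vale.Agent.P011.D4.Oct Equiv Module

variable {F : Type} [Field F] [NumberField F] {A B C : Fˣ}

theorem exists_dec (a : Oct A B C) :
    ∃ (p : Oct A B C) (s t : F), norm p = 1 ∧ bil p 1 ≠ 0 ∧ a = s • 1 + t • p := by
  obtain ⟨b, s, h1, rfl⟩ : ∃ (b : Oct A B C) (s : F), bil b 1 = 0 ∧ a = s • 1 + b :=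
    ⟨a - (bil a 1 / 2) • 1, bil a 1 / 2, by
      rw [bil_sub_left, bil_smul_left, bil_self, Oct.norm_one]
      ring, by abel⟩
  obtain ⟨t, h2, h3, h4⟩ : ∃ t : F, t ≠ 0 ∧ 1 + t ^ 2 * norm b ≠ 0 ∧ 1 - t ^ 2 * norm b ≠ 0 := by
    by_cases h : norm b ^ 2 = 1
    · exact ⟨2, two_ne_zero, fun h0 => (by norm_num : (15 : F) ≠ 0) (by
        linear_combination (4 * norm b - 1) * h0 - 16 * h), fun h0 => (by norm_num : (15 : F) ≠ 0)
          (by linear_combination (-4 * norm b - 1) * h0 - 16 * h)⟩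
    · exact ⟨1, one_ne_zero, fun h0 => h (by linear_combination (norm b - 1) * h0),
        fun h0 => h (by linear_combination (-norm b - 1) * h0)⟩
  refine ⟨((1 - t ^ 2 * norm b) / (1 + t ^ 2 * norm b)) • 1 + (2 * t / (1 + t ^ 2 * norm b)) • b,
    s - (1 - t ^ 2 * norm b) / (2 * t), (1 + t ^ 2 * norm b) / (2 * t), ?_, ?_, ?_⟩
  · rw [Oct.norm_add, Oct.norm_smul, Oct.norm_smul, bil_smul_left, bil_smul_right, bil_comm, h1,
      Oct.norm_one]
    field_simp
    ring
  · rw [bil_add_left, bil_smul_left, bil_smul_left, h1, bil_self, Oct.norm_one, mul_zero, add_zero]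
    exact mul_ne_zero (div_ne_zero h4 h3) (by norm_num)
  · match_scalars
    · field_simp
      ring
    · field_simp

theorem exists_orth (z : Oct A B C) :
    ∃ a : Oct A B C, norm a ≠ 0 ∧ bil a 1 = 0 ∧ a * (z * a) = (-norm a) • star z := by
  have hb : ∀ t : F, Fx ⊥ t := fun t γ hγ => by
    rw [Subgroup.mem_bot.1 hγ]
    rfl
  obtain ⟨a, -, h2, h3, h4⟩ := (oact_jO (A := A) (B := B) (C := C) (hb _) (hb _)
    (hb _)).exists_perp (fun _ => star z) fun _ γ hγ => by rw [Subgroup.mem_bot.1 hγ]; rfl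
  exact ⟨a, h2, h3, by rw [mul_mul_eq, h4 0, zero_smul, zero_sub, neg_smul]⟩

theorem lin_tr (u : Oct A B C →ₗ[F] F)
    (h : ∀ a z, bil a 1 = 0 → u (a * (z * a)) = -norm a * u z) (z : Oct A B C) :
    2 * u z = u 1 * bil z 1 := by
  obtain ⟨a, h1, h2, h3⟩ := exists_orth z
  have h4 := h a z h2
  rw [h3, map_smul, smul_eq_mul, star_eq, map_sub, map_smul, smul_eq_mul] at h4
  linear_combination -mul_left_cancel₀ (neg_ne_zero.2 h1) h4

/-- The invariant bilinear forms on a summand. -/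
theorem bil_unique (β : Oct A B C →ₗ[F] Oct A B C →ₗ[F] F)
    (h1 : ∀ p : Oct A B C, norm p = 1 → ∀ x y, β (p * x) (p * y) = β x y)
    (h2 : ∀ p : Oct A B C, norm p = 1 → ∀ x y, β (x * p) (y * p) = β x y) :
    ∃ l, ∀ x y, β x y = l * bil x y := by
  have h3 : ∀ a x y, β (a * x) y = β x (star a * y) := fun a x y => by
    obtain ⟨p, s, t, k1, -, rfl⟩ := exists_dec a
    have k2 := h1 p k1 x (star p * y)
    rw [mul_star_mul, k1, one_smul] at k2
    simp only [star_add, star_smul_oct, star_one, add_mul, smul_mul_assoc, one_mul, map_add,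
      map_smul, LinearMap.add_apply, LinearMap.smul_apply, k2]
  have h4 : ∀ a x y, β (x * a) y = β x (y * star a) := fun a x y => by
    obtain ⟨p, s, t, k1, -, rfl⟩ := exists_dec a
    have k2 := h2 p k1 x (y * star p)
    rw [mul_star_mul', k1, one_smul] at k2
    simp only [star_add, star_smul_oct, star_one, mul_add, mul_smul_comm, mul_one, map_add,
      map_smul, LinearMap.add_apply, LinearMap.smul_apply, k2]
  have h5 : ∀ x y, β x y = β 1 (star x * y) := fun x y => by rw [← h3, mul_one]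
  have h6 : ∀ x y, β 1 (x * y) = β 1 (y * x) := fun x y => by
    rw [← star_star x, ← h3, ← h4, mul_one, one_mul]
  refine ⟨β 1 1 / 2, fun x y => ?_⟩
  have h7 := lin_tr (β 1) (fun a z ha => by
    rw [h6, mul_self_mul, mul_self_of_pure ha, mul_smul_comm, mul_one, map_smul, smul_eq_mul])
    (star x * y)
  rw [bil_mul_left, star_star, mul_one, bil_comm, ← h5] at h7
  linear_combination h7 / 2

/-- A trilinear form. -/
structure Tl (θ : Oct A B C → Oct A B C → Oct A B C → F) : Prop where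
  a1 : ∀ x x' y z, θ (x + x') y z = θ x y z + θ x' y z
  s1 : ∀ (t : F) x y z, θ (t • x) y z = t * θ x y z
  a2 : ∀ x y y' z, θ x (y + y') z = θ x y z + θ x y' z
  s2 : ∀ (t : F) x y z, θ x (t • y) z = t * θ x y z
  a3 : ∀ x y z z', θ x y (z + z') = θ x y z + θ x y z'
  s3 : ∀ (t : F) x y z, θ x y (t • z) = t * θ x y z

variable {θ : Oct A B C → Oct A B C → Oct A B C → F}

omit [NumberField F] in
theorem Tl.cyc (h : Tl θ) : Tl fun y z x => θ x y z :=
  ⟨fun _ _ _ _ => h.a2 .., fun _ _ _ _ => h.s2 .., fun _ _ _ _ => h.a3 .., fun _ _ _ _ => h.s3 ..,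
    fun _ _ _ _ => h.a1 .., fun _ _ _ _ => h.s1 ..⟩

theorem Tl.rel (h : Tl θ)
    (h1 : ∀ p : Oct A B C, norm p = 1 → ∀ x y z, θ (p * x) (y * p) (star p * z * star p) = θ x y z)
    (a x y z : Oct A B C) : θ (a * x) y z + θ x (y * a) z = θ x y (a * z) + θ x y (z * a) := by
  have h2 : ∀ p : Oct A B C, norm p = 1 → θ (p * x) (y * p) z = θ x y (p * z * p) := fun p hp => by
    rw [← h1 p hp x, flex p, star_mul_mul, hp, one_smul, mul_mul_star, hp, one_smul]
  obtain ⟨p, s, t, k1, k2, rfl⟩ := exists_dec a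
  have k3 := h2 p k1
  have k4 := h2 (star p) (by rw [Oct.norm_star, k1])
  rw [star_eq, sub_eq_add_neg, ← neg_one_smul F p] at k4
  simp only [add_mul, mul_add, smul_mul_assoc, mul_smul_comm, one_mul, mul_one, h.a1, h.a2, h.a3,
    h.s1, h.s2, h.s3] at k4 ⊢
  have k5 : θ (p * x) y z + θ x (y * p) z = θ x y (p * z) + θ x y (z * p) :=
    mul_left_cancel₀ k2 (by linear_combination k3 - k4)
  linear_combination t * k5

/-- The invariant trilinear forms. -/
theorem Tl.eq_zero (h : Tl θ)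
    (h1 : ∀ p : Oct A B C, norm p = 1 → ∀ x y z, θ (p * x) (y * p) (star p * z * star p) = θ x y z)
    (h2 : ∀ p : Oct A B C, norm p = 1 → ∀ x y z, θ (star p * x * star p) (p * y) (z * p) = θ x y z)
    (h3 : θ 1 1 1 = 0) (x y z : Oct A B C) : θ x y z = 0 := by
  have r0 := h.rel h1
  have r1 : ∀ a x y z, θ x (a * y) z + θ x y (z * a) = θ (a * x) y z + θ (x * a) y z :=
    fun a x y z => h.cyc.rel (fun p hp y z x => h2 p hp x y z) a y z x
  have k1 : ∀ a, θ 1 a 1 = θ a 1 1 ∧ θ 1 1 a = θ a 1 1 := fun a => by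
    have k2 := r0 a 1 1 1
    have k3 := r1 a 1 1 1
    simp only [mul_one, one_mul] at k2 k3
    exact ⟨by linear_combination (k2 + 2 * k3) / 3, by linear_combination (k3 - k2) / 3⟩
  have k2 : ∀ y a, 3 * θ 1 y a = θ (a * y) 1 1 + 2 * θ (y * a) 1 1 := fun y a => by
    have k3 := r0 a 1 y 1
    have k4 := r1 a 1 y 1
    simp only [mul_one, one_mul, (k1 _).1] at k3 k4
    linear_combination -2 * k3 - k4
  have k3 : ∀ a y z, 2 * θ a y z = θ 1 (a * y) z + θ 1 y (z * a) := fun a y z => by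
    have k4 := r1 a 1 y z
    simp only [mul_one, one_mul] at k4
    linear_combination -k4
  have k4 : ∀ z, θ z 1 1 = 0 := fun z => by
    have k5 := lin_tr ⟨⟨fun z => θ z 1 1, fun _ _ => h.a1 ..⟩, fun _ _ => h.s1 ..⟩
      (fun a z ha => by
        have k5 := r0 a 1 a z
        have k6 := k3 a a z
        have k7 := k2 a (a * z)
        have k8 := k2 a (z * a)
        simp only [mul_mul_self, mul_self_mul, flex, mul_self_of_pure ha, mul_one, one_mul,
          smul_mul_assoc, mul_smul_comm, h.s1, h.s2, (k1 _).2] at k5 k6 k7 k8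
        change θ _ 1 1 = _ * θ z 1 1
        linear_combination (3 * k6 - 6 * k5 - 2 * k7 - k8) / 4) z
    change 2 * θ z 1 1 = θ 1 1 1 * _ at k5
    linear_combination k5 / 2 + bil z 1 / 2 * h3
  have k5 : ∀ y a, θ 1 y a = 0 := fun y a => by
    linear_combination (k2 y a + k4 (a * y) + 2 * k4 (y * a)) / 3
  linear_combination (k3 x y z + k5 (x * y) z + k5 y (z * x)) / 2

theorem tm_mem (k : Fin 3) {p : Oct A B C} (hp : norm p = 1) :
    tm k p (hp ▸ one_ne_zero) ∈ S4 A B C := by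
  obtain ⟨μ, ν, h⟩ := sim4_tm (k := k) (ha := (hp ▸ one_ne_zero : norm p ≠ 0))
  refine mem_S4.2 ⟨h.semi, fun x i => ?_, fun x => ?_, fun _ => one_ne_zero, one_ne_zero⟩
  · rcases fin3_cases k i with rfl | rfl | rfl <;>
      simp only [Perm.one_apply, tm_zero, tm_one, tm_two, Oct.norm_mul, Oct.norm_star, id, hp,
        Pi.one_apply, one_mul, mul_one]
  · rw [← tau_shift _ k, ← tau_shift x k, tau, tau, zero_add, add_comm 1, add_comm 2, tm_zero,
      tm_one, tm_two, tr_moufang, id, hp, one_pow]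

theorem exists_L (k : Fin 3) {p : Oct A B C} (hp : norm p = 1) :
    ∃ g ∈ S4 A B C, ∀ x, g x k = p * x k := ⟨_, tm_mem k hp, tm_zero⟩

theorem exists_R (k : Fin 3) {p : Oct A B C} (hp : norm p = 1) :
    ∃ g ∈ S4 A B C, ∀ x, g x k = x k * p := by
  obtain ⟨k, rfl⟩ := (Equiv.addRight (1 : Fin 3)).surjective k
  exact ⟨_, tm_mem k hp, tm_one⟩

theorem bil_unique' (k : Fin 3) (β : Oct A B C →ₗ[F] Oct A B C →ₗ[F] F)
    (h : ∀ g ∈ S4 A B C, ∀ x y, β (g x k) (g y k) = β (x k) (y k)) :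
    ∃ l, ∀ x y, β x y = l * bil x y := by
  refine bil_unique β (fun p hp x y => ?_) fun p hp x y => ?_
  · obtain ⟨g, h1, h2⟩ := exists_L k hp
    exact (congrArg₂ (β · ·) (h2 fun _ => x) (h2 fun _ => y)).symm.trans (h g h1 _ _)
  · obtain ⟨g, h1, h2⟩ := exists_R k hp
    exact (congrArg₂ (β · ·) (h2 fun _ => x) (h2 fun _ => y)).symm.trans (h g h1 _ _)

/-- The linear maps which commute with the spin group. -/
theorem comm4 (n : V4 A B C →ₗ[F] V4 A B C) (hn : ∀ g ∈ S4 A B C, ∀ x, n (g x) = g (n x)) :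
    ∃ l : Fin 3 → F, ∀ x i, n x i = l i • x i := by
  have h1 : ∀ i x, x i = 0 → n x i = 0 := fun i x hx => by
    have h0 : ∀ j, (if j = i then 1 else -1 : F) ≠ 0 := fun j => by
      split_ifs
      exacts [one_ne_zero, neg_ne_zero.2 one_ne_zero]
    have h2 := congrFun (hn (zs _ h0) (mem_S4.2 ((sim4_one.2 (sim4_scal (zs_apply _ h0))).cast rfl
      rfl (fun j => by split_ifs <;> simp) (by fin_cases i <;> simp))) x) i
    rw [zs_apply, if_pos rfl, one_smul, show zs _ h0 x = -x from funext fun j => by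
      rw [zs_apply, Pi.neg_apply]
      split_ifs with h
      · rw [h, hx, neg_zero, smul_zero]
      · rw [neg_one_smul], map_neg, Pi.neg_apply, neg_eq_iff_add_eq_zero, ← two_smul F] at h2
    exact (smul_eq_zero.1 h2).resolve_left two_ne_zero
  have h2 : ∀ i x, n x i = n (fun _ => x i) i := fun i x => by
    rw [← sub_eq_zero, ← Pi.sub_apply (n x), ← map_sub]
    exact h1 i _ (sub_self _)
  have h3 : ∀ i, ∃ l : F, ∀ x, n x i = l • x i := fun i => by
    obtain ⟨l, hl⟩ := bil_unique' i (bilL A B C ∘ₗ LinearMap.proj i ∘ₗ n ∘ₗ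
      LinearMap.pi fun _ => LinearMap.id) fun g hg x y => by
        have h3 := (sim4_one.2 (mem_S4.1 hg)).obil (n x) y i
        rw [← hn _ hg, Pi.one_apply, one_mul, Perm.one_apply, h2, h2 i x] at h3
        exact h3
    exact ⟨l, fun x => (h2 i x).trans (eq_of_bil fun y => (hl _ y).trans (bil_smul_left ..).symm)⟩
  choose l hl using h3
  exact ⟨l, fun x i => hl i x⟩

theorem exists_tm (k i j : Fin 3) (hi : i = k + 1) (hj : j = k + 2) {p : Oct A B C}
    (hp : norm p = 1) : ∃ g ∈ S4 A B C, ∀ v, g v k = p * v k ∧ g v i = v i * p ∧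
      g v j = star p * v j * star p :=
  ⟨_, tm_mem k hp, fun v => ⟨tm_zero v, hi ▸ tm_one v, hj ▸ tm_two v⟩⟩

theorem tau_unique (h : Tl θ)
    (h1 : ∀ g ∈ S4 A B C, ∀ x, θ (g x 0) (g x 1) (g x 2) = θ (x 0) (x 1) (x 2)) :
    ∃ ν, ∀ x y z, θ x y z = ν * bil (x * y * z) 1 := by
  have h2 : ∀ g ∈ S4 A B C, ∀ x y z, θ (g ![x, y, z] 0) (g ![x, y, z] 1) (g ![x, y, z] 2) -
      θ 1 1 1 / 2 * bil (g ![x, y, z] 0 * g ![x, y, z] 1 * g ![x, y, z] 2) 1 =
      θ x y z - θ 1 1 1 / 2 * bil (x * y * z) 1 := fun g hg x y z => by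
    rw [h1 g hg, ← tau, (mem_S4.1 hg).tri, one_mul]
    rfl
  refine ⟨θ 1 1 1 / 2, fun x y z => sub_eq_zero.1 (Tl.eq_zero
    (θ := fun x y z => θ x y z - θ 1 1 1 / 2 * bil (x * y * z) 1) ⟨?_, ?_, ?_, ?_, ?_, ?_⟩
    (fun p hp x y z => ?_) (fun p hp x y z => ?_) ?_ x y z)⟩
  rotate_left 6
  · obtain ⟨g, hg, k⟩ := exists_tm 0 1 2 rfl rfl hp
    simpa only [k, Matrix.cons_val] using h2 g hg x y z
  · obtain ⟨g, hg, k⟩ := exists_tm 1 2 0 rfl rfl hp
    simpa only [k, Matrix.cons_val] using h2 g hg x y z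
  all_goals
    intros
    simp only [h.a1, h.a2, h.a3, h.s1, h.s2, h.s3, add_mul, mul_add, smul_mul_assoc, mul_smul_comm,
      bil_add_left, bil_smul_left, mul_one, bil_self, Oct.norm_one]
    ring

end Vale.Agent.P011N.Cl.N4
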